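import Vale.Agent.P158.Gen.Cut.Det

/-!
Chains of `l` gaps and spans of total length `N`, `l ≤ N / r`, are at most
`exp (N (2 + 4 log (2 r)) / r)` in number.
-/

open MeasureTheory Filter Topology

namespace Vale.Agent.P158.Gen.Cut

open Vale.Agent.P158 Vale.Agent.P158.Gen

/-- The integers of absolute value at most `N`. -/
noncomputable def span1 (N : ℕ) : Finset ℤ := Finset.Icc (-(N : ℤ)) N

theorem sum_span1 (X : ℝ) : ∀ N : ℕ,
    (∑ a ∈ span1 N, X ^ a.natAbs) * (1 - X) = 1 + X - 2 * X ^ (N + 1)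
  | 0 => by simp [span1]; ring
  | N + 1 => by
    have h : span1 (N + 1) = insert (((N : ℤ) + 1)) (insert (-((N : ℤ) + 1)) (span1 N)) := by
      ext a
      simp only [span1, Finset.mem_insert, Finset.mem_Icc]
      push_cast
      omega
    rw [h, Finset.sum_insert (by simp [span1]; omega), Finset.sum_insert (by simp [span1])]
    have h1 : ((N : ℤ) + 1).natAbs = N + 1 := by omega
    have h2 : (-((N : ℤ) + 1)).natAbs = N + 1 := by omega
    rw [h1, h2, add_mul, add_mul, sum_span1 X N]
    ring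

/-- The steps of a chain of total length at most `N`. -/
noncomputable def steps (N : ℕ) : Finset (V × V) := (span1 N ×ˢ span1 N) ×ˢ (span1 N ×ˢ span1 N)

/-- The chains of `l` gaps and spans of total length at most `N`. -/
noncomputable def chains (N l : ℕ) : Finset (List (V × V)) :=
  ((Fintype.piFinset fun _ : Fin l => steps N).filter
    fun f => ∑ i, (l1 (f i).1 + l1 (f i).2) ≤ N).image List.ofFn

theorem mem_chains {N : ℕ} {L : List (V × V)} (h : totSum L ≤ N) : L ∈ chains N L.length := by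
  have hs : ∑ i : Fin L.length, (l1 (L.get i).1 + l1 (L.get i).2) = totSum L := by
    rw [← List.sum_ofFn, totSum]
    congr 1
    conv_rhs => rw [← List.ofFn_get L]
    rw [List.map_ofFn]
    rfl
  refine Finset.mem_image.2 ⟨L.get, Finset.mem_filter.2 ⟨Fintype.mem_piFinset.2 fun i => ?_,
    hs.le.trans h⟩, List.ofFn_get L⟩
  have hi := (Finset.single_le_sum (f := fun i => l1 (L.get i).1 + l1 (L.get i).2)
    (fun _ _ => Nat.zero_le _) (Finset.mem_univ i)).trans (hs.le.trans h)
  simp only [l1] at hi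
  simp only [steps, span1, Finset.mem_product, Finset.mem_Icc]
  omega

theorem card_chains {N l r : ℕ} (hr : 2 ≤ r) (hl : l * r ≤ N) :
    ((chains N l).card : ℝ) ≤ Real.exp (N * (2 + 4 * Real.log (2 * r)) / r) := by
  have hr' : (2 : ℝ) ≤ r := by exact_mod_cast hr
  set X : ℝ := 1 - 1 / r with hX
  have hX0 : 0 < X := by
    have : (1 : ℝ) / r < 1 := by rw [div_lt_one (by linarith)]; linarith
    linarith
  have hX1 : X ≤ 1 := by
    have : (0 : ℝ) ≤ 1 / r := by positivity
    linarith
  have hsum : ∑ a ∈ span1 N, X ^ a.natAbs ≤ 2 * r := by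
    have h := sum_span1 X N
    have h0 : 0 ≤ 2 * X ^ (N + 1) := by positivity
    rw [show 1 - X = 1 / (r : ℝ) by rw [hX]; ring, mul_one_div, div_eq_iff (by linarith)] at h
    rw [h]
    exact mul_le_mul_of_nonneg_right (by linarith) (by linarith)
  have hsum0 : 0 ≤ ∑ a ∈ span1 N, X ^ a.natAbs :=
    Finset.sum_nonneg fun _ _ => pow_nonneg hX0.le _
  have hsteps : ∑ v ∈ steps N, X ^ (l1 v.1 + l1 v.2) = (∑ a ∈ span1 N, X ^ a.natAbs) ^ 4 := by
    simp only [steps, Finset.sum_product, l1, pow_add, ← Finset.mul_sum, ← Finset.sum_mul]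
    ring
  have hweight : ((chains N l).card : ℝ) * X ^ N ≤ (2 * r : ℝ) ^ (4 * l) := by
    calc ((chains N l).card : ℝ) * X ^ N
        ≤ (((Fintype.piFinset fun _ : Fin l => steps N).filter
            fun f => ∑ i, (l1 (f i).1 + l1 (f i).2) ≤ N).card : ℝ) * X ^ N := by
          gcongr
          exact Finset.card_image_le
      _ ≤ ∑ f ∈ (Fintype.piFinset fun _ : Fin l => steps N).filter
            fun f => ∑ i, (l1 (f i).1 + l1 (f i).2) ≤ N,
            ∏ i, X ^ (l1 (f i).1 + l1 (f i).2) := by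
          rw [← nsmul_eq_mul]
          refine Finset.card_nsmul_le_sum _ _ _ fun f hf => ?_
          rw [Finset.prod_pow_eq_pow_sum]
          exact pow_le_pow_of_le_one hX0.le hX1 (Finset.mem_filter.1 hf).2
      _ ≤ ∑ f ∈ Fintype.piFinset fun _ : Fin l => steps N,
            ∏ i, X ^ (l1 (f i).1 + l1 (f i).2) :=
          Finset.sum_le_sum_of_subset_of_nonneg (Finset.filter_subset _ _)
            fun f _ _ => Finset.prod_nonneg fun i _ => pow_nonneg hX0.le _
      _ = ((∑ a ∈ span1 N, X ^ a.natAbs) ^ 4) ^ l := by rw [← hsteps, Finset.sum_pow']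
      _ ≤ (2 * r : ℝ) ^ (4 * l) := by
          rw [← pow_mul]
          exact pow_le_pow_left₀ hsum0 hsum _
  have hlow : 1 ≤ X * Real.exp (2 / r) := by
    have h1 := Real.add_one_le_exp (2 / (r : ℝ))
    have h2 : 1 ≤ X * (2 / r + 1) := by
      have h3 : X * (2 / r + 1) - 1 = ((r : ℝ) - 2) / (r * r) := by
        rw [hX]; field_simp; ring
      have h4 : 0 ≤ ((r : ℝ) - 2) / (r * r) := div_nonneg (by linarith) (by positivity)
      linarith
    exact h2.trans (mul_le_mul_of_nonneg_left h1 hX0.le)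
  have hlog : (2 * r : ℝ) ^ (4 * l) = Real.exp (((4 * l : ℕ) : ℝ) * Real.log (2 * r)) := by
    rw [Real.exp_nat_mul, Real.exp_log (by linarith)]
  have hl' : (l : ℝ) ≤ N / r := by
    rw [le_div_iff₀ (by linarith)]
    exact_mod_cast hl
  calc ((chains N l).card : ℝ)
      = (chains N l).card * 1 ^ N := by simp
    _ ≤ (chains N l).card * (X * Real.exp (2 / r)) ^ N := by gcongr
    _ = (chains N l).card * X ^ N * Real.exp (2 / r) ^ N := by rw [mul_pow]; ring
    _ ≤ (2 * r : ℝ) ^ (4 * l) * Real.exp (2 / r) ^ N :=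
        mul_le_mul_of_nonneg_right hweight (by positivity)
    _ ≤ Real.exp (N * (2 + 4 * Real.log (2 * r)) / r) := by
        rw [hlog, ← Real.exp_nat_mul, ← Real.exp_add, Real.exp_le_exp]
        push_cast
        have hlg : 0 ≤ Real.log (2 * r) := Real.log_nonneg (by linarith)
        have := mul_le_mul_of_nonneg_right hl' (mul_nonneg (by norm_num : (0 : ℝ) ≤ 4) hlg)
        have he : (N : ℝ) / r * (4 * Real.log (2 * r)) + N * (2 / r)
            = N * (2 + 4 * Real.log (2 * r)) / r := by ring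
        linarith

/-- `(2 + 4 log (2 r)) / r` tends to `0`. -/
theorem rate_tendsto :
    Tendsto (fun r : ℕ => (2 + 4 * Real.log (2 * r)) / r) atTop (𝓝 0) := by
  have h1 : Tendsto (fun r : ℕ => (2 : ℝ) / r) atTop (𝓝 0) :=
    tendsto_const_div_atTop_nhds_zero_nat 2
  have h2 : Tendsto (fun x : ℝ => Real.log x / x) atTop (𝓝 0) := by
    simpa using Real.tendsto_pow_log_div_mul_add_atTop 1 0 1 one_ne_zero
  have h3 : Tendsto (fun r : ℕ => (2 : ℝ) * r) atTop atTop :=
    (tendsto_natCast_atTop_atTop (R := ℝ)).const_mul_atTop two_pos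
  have h4 := h1.add ((h2.comp h3).const_mul 8)
  rw [mul_zero, add_zero] at h4
  refine h4.congr fun r => ?_
  simp only [Function.comp_apply]
  rcases eq_or_ne (r : ℝ) 0 with h | h
  · simp [h]
  · field_simp; ring

end Vale.Agent.P158.Gen.Cut
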