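import Vale.Agent.P158.Gen.Spec

/-!
Pieces of a geodesic are replaced by straight segments in one detour: their weight is at most
`m` times their spans plus `8 m` per edge of the clusters at the segments.
-/

open MeasureTheory Filter Topology

namespace Vale.Agent.P158.Gen.Cut

open Vale.Agent.P158 Vale.Agent.P158.Gen

/-- The sum norm. -/
def l1 (v : V) : ℕ := v.1.natAbs + v.2.natAbs

theorem l1_cast (x y : V) : (l1 (y - x) : ℝ) = dist1 x y := by
  simp only [l1, dist1, Prod.fst_sub, Prod.snd_sub]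
  push_cast [Nat.cast_natAbs, Int.cast_abs]
  rw [abs_sub_comm (x.1 : ℝ), abs_sub_comm (x.2 : ℝ)]

theorem l1_le_length {x y : V} (p : grid.Walk x y) : l1 (y - x) ≤ p.length := by
  induction p with
  | nil => simp [l1]
  | @cons u v w h q ih =>
    have h' : |u.1 - v.1| + |u.2 - v.2| = 1 := h
    simp only [l1, Prod.fst_sub, Prod.snd_sub] at ih ⊢
    rw [SimpleGraph.Walk.length_cons]
    rw [Int.abs_eq_natAbs, Int.abs_eq_natAbs] at h'
    omega

/-- A shortest walk between two vertices. -/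
noncomputable def straight (x y : V) : grid.Walk x y := (exists_walk_l1 x y).choose

theorem length_straight (x y : V) : (straight x y).length = l1 (y - x) := by
  have h : ((straight x y).length : ℤ) = |x.1 - y.1| + |x.2 - y.2| :=
    (exists_walk_l1 x y).choose_spec
  simp only [l1, Prod.fst_sub, Prod.snd_sub]
  rw [Int.abs_eq_natAbs, Int.abs_eq_natAbs] at h
  omega

/-- The edges of the straight segments of a chain of gaps and spans. -/
noncomputable def segs : V → List (V × V) → Finset Edge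
  | _, [] => ∅
  | z, (g, s) :: L => (edgeList (straight (z + g) (z + g + s))).toFinset ∪ segs (z + g + s) L

/-- The total span. -/
def spanSum (L : List (V × V)) : ℕ := (L.map fun x => l1 x.2).sum

/-- The total of gaps and spans. -/
def totSum (L : List (V × V)) : ℕ := (L.map fun x => l1 x.1 + l1 x.2).sum

theorem card_segs_le (z : V) (L : List (V × V)) : (segs z L).card ≤ spanSum L := by
  induction L generalizing z with
  | nil => simp [segs, spanSum]
  | cons x L ih =>
    obtain ⟨g, s⟩ := x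
    simp only [segs, spanSum, List.map_cons, List.sum_cons]
    refine (Finset.card_union_le _ _).trans (Nat.add_le_add ?_ (ih _))
    refine (List.toFinset_card_le _).trans ?_
    rw [length_edgeList, length_straight, add_sub_cancel_left]

/-- The weight of the edges of a list outside `U`. -/
noncomputable def off (t : Conf) (U : Finset Edge) (l : List Edge) : ℝ :=
  ((l.filter fun e => e ∉ U).map t).sum

theorem off_append (t : Conf) (U : Finset Edge) (l l' : List Edge) :
    off t U (l ++ l') = off t U l + off t U l' := by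
  simp [off]

theorem off_le_mul {m : ℝ} (hm : 0 ≤ m) {t : Conf} {U : Finset Edge} {l : List Edge}
    (h : ∀ e ∈ l, m < t e → e ∈ U) : off t U l ≤ m * l.length := by
  induction l with
  | nil => simp [off]
  | cons e l ih =>
    have h1 := ih fun f hf => h f (List.mem_cons_of_mem _ hf)
    simp only [off, List.filter_cons, List.length_cons, decide_not] at h1 ⊢
    push_cast
    rw [mul_add, mul_one]
    by_cases he : e ∈ U
    · simp [he]; linarith
    · have : t e ≤ m := not_lt.1 fun hc => he (h e List.mem_cons_self hc)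
      simp [he]; linarith

theorem off_le_sum {t : Conf} (h0 : ∀ e, 0 ≤ t e) (U : Finset Edge) (l : List Edge) :
    off t U l ≤ (l.map t).sum :=
  List.Sublist.sum_le_sum (List.filter_sublist.map _)
    (by simp only [List.mem_map]; rintro a ⟨e, -, rfl⟩; exact h0 e)

theorem edgeList_append {x y z : V} (p : grid.Walk x y) (q : grid.Walk y z) :
    edgeList (p.append q) = edgeList p ++ edgeList q := by simp [edgeList]

theorem sum_split (f : ℤ → ℝ) {a b c : ℤ} (hab : a ≤ b) (hbc : b ≤ c) :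
    ∑ i ∈ Finset.Ico a c, f i = ∑ i ∈ Finset.Ico a b, f i + ∑ i ∈ Finset.Ico b c, f i := by
  rw [← Finset.Ico_union_Ico_eq_Ico hab hbc,
    Finset.sum_union (Finset.Ico_disjoint_Ico_consecutive a b c)]

theorem sum_one (f : ℤ → ℝ) (a : ℤ) : ∑ i ∈ Finset.Ico a (a + 1), f i = f a := by
  have h : Finset.Ico a (a + 1) = {a} := by ext; simp; omega
  rw [h, Finset.sum_singleton]

/-- The walk along a path of the lattice. -/
theorem exists_along (t : Conf) (γ : ℤ → V) (n : ℕ) : ∀ a b : ℤ, b = a + n →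
    (∀ i, a ≤ i → i < b → Adj (γ i) (γ (i + 1))) →
    ∃ W : grid.Walk (γ a) (γ b), W.length = n ∧
      ((edgeList W).map t).sum = ∑ i ∈ Finset.Ico a b, wt t (γ i) (γ (i + 1)) := by
  induction n with
  | zero =>
    intro a b hb _
    obtain rfl : b = a := by omega
    exact ⟨.nil, rfl, by simp⟩
  | succ n ih =>
    intro a b hb hadj
    obtain ⟨W, hl, hs⟩ := ih (a + 1) b (by push_cast at hb; omega)
      fun i h1 h2 => hadj i (by omega) h2
    refine ⟨.cons (show grid.Adj (γ a) (γ (a + 1)) from hadj a le_rfl (by omega)) W, by simp [hl],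
      ?_⟩
    rw [edgeList_cons, List.map_cons, List.sum_cons, hs,
      sum_split (fun i => wt t (γ i) (γ (i + 1))) (show a ≤ a + 1 by omega)
        (show a + 1 ≤ b by omega), sum_one]
    rfl

theorem off_along {t : Conf} (h0 : ∀ e, 0 ≤ t e) (U : Finset Edge) (γ : ℤ → V) {a b : ℤ}
    (hab : a ≤ b) (hadj : ∀ i, a ≤ i → i < b → Adj (γ i) (γ (i + 1))) :
    ∃ W : grid.Walk (γ a) (γ b),
      off t U (edgeList W) ≤ ∑ i ∈ Finset.Ico a b, wt t (γ i) (γ (i + 1)) ∧
      (l1 (γ b - γ a) : ℤ) ≤ b - a := by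
  obtain ⟨W, hl, hs⟩ := exists_along t γ (b - a).toNat a b (by omega) hadj
  refine ⟨W, hs ▸ off_le_sum h0 U _, ?_⟩
  have := l1_le_length W
  omega

/-- The walk along `γ` with the pieces replaced by straight segments. -/
theorem exists_spliced {m : ℝ} (hm : 0 ≤ m) {t : Conf} (h0 : ∀ e, 0 ≤ t e) (γ : ℤ → V) :
    ∀ (l : ℕ) (a b : ℤ) (p q : Fin l → ℤ), a ≤ b →
      (∀ i, a ≤ i → i < b → Adj (γ i) (γ (i + 1))) →
      (∀ j, a ≤ p j ∧ p j ≤ q j ∧ q j ≤ b) → (∀ i j, i < j → q i ≤ p j) →
      ∃ L : List (V × V), L.length = l ∧ (totSum L : ℤ) ≤ b - a ∧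
        (spanSum L : ℝ) = ∑ j, dist1 (γ (p j)) (γ (q j)) ∧
        ∀ U : Finset Edge, (∀ e ∈ segs (γ a) L, m < t e → e ∈ U) →
          ∃ W : grid.Walk (γ a) (γ b),
            off t U (edgeList W) + ∑ j, ∑ i ∈ Finset.Ico (p j) (q j), wt t (γ i) (γ (i + 1)) ≤
              ∑ i ∈ Finset.Ico a b, wt t (γ i) (γ (i + 1)) + m * spanSum L := by
  intro l
  induction l with
  | zero =>
    intro a b p q hab hadj _ _
    refine ⟨[], rfl, by simp [totSum]; omega, by simp [spanSum], fun U _ => ?_⟩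
    obtain ⟨W, hW, -⟩ := off_along h0 U γ hab hadj
    exact ⟨W, by simpa [spanSum] using hW⟩
  | succ l ih =>
    intro a b p q hab hadj hpq hord
    obtain ⟨hap, hpq0, hqb⟩ := hpq 0
    obtain ⟨L, hl, htot, hspan, hW⟩ := ih (q 0) b (fun j => p j.succ) (fun j => q j.succ) hqb
      (fun i h1 h2 => hadj i (by omega) h2)
      (fun j => ⟨hord 0 j.succ (Fin.succ_pos j), (hpq j.succ).2.1, (hpq j.succ).2.2⟩)
      (fun i j h => hord i.succ j.succ (Fin.succ_lt_succ_iff.2 h))
    refine ⟨(γ (p 0) - γ a, γ (q 0) - γ (p 0)) :: L, by simp [hl], ?_, ?_, fun U hU => ?_⟩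
    · obtain ⟨-, -, hg⟩ := off_along h0 ∅ γ hap fun i h1 h2 => hadj i h1 (by omega)
      obtain ⟨-, -, hs⟩ := off_along h0 ∅ γ hpq0 fun i h1 h2 => hadj i (by omega) (by omega)
      simp only [totSum, List.map_cons, List.sum_cons] at htot ⊢
      push_cast at htot ⊢
      omega
    · rw [Fin.sum_univ_succ, ← hspan, ← l1_cast]
      simp [spanSum]
    · rw [segs, add_sub_cancel, add_sub_cancel] at hU
      simp only [Finset.mem_union] at hU
      obtain ⟨W', hW'⟩ := hW U fun e he => hU e (Or.inr he)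
      obtain ⟨W₀, hW₀, -⟩ := off_along h0 U γ hap fun i h1 h2 => hadj i h1 (by omega)
      refine ⟨(W₀.append (straight (γ (p 0)) (γ (q 0)))).append W', ?_⟩
      have hS := off_le_mul hm (t := t) (U := U) (l := edgeList (straight (γ (p 0)) (γ (q 0))))
        fun e he => hU e (Or.inl (List.mem_toFinset.2 he))
      rw [length_edgeList, length_straight] at hS
      have hsum1 := sum_split (fun i => wt t (γ i) (γ (i + 1))) hap (show p 0 ≤ b by omega)
      have hsum2 := sum_split (fun i => wt t (γ i) (γ (i + 1))) hpq0 hqb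
      rw [edgeList_append, edgeList_append, off_append, off_append, Fin.sum_univ_succ]
      simp only [spanSum, List.map_cons, List.sum_cons, Nat.cast_add] at hW' ⊢
      linarith

/-- The clusters of the edges of `S`. -/
def clus (m : ℝ) (t : Conf) (S : Finset Edge) : Set Edge := ⋃ e ∈ S, cl m t e

theorem mem_cl_lt {m : ℝ} {t : Conf} {e f : Edge} (h : f ∈ cl m t e) : m < t f := by
  obtain ⟨he, hf⟩ := h
  rcases hf.cases_tail with rfl | ⟨c, -, -, hc⟩
  · exact he
  · exact hc

theorem clus_closed {m : ℝ} {t : Conf} {S : Finset Edge} {f : Edge} (hf : f ∈ clus m t S) :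
    m < t f ∧ cl m t f ⊆ clus m t S := by
  obtain ⟨e, he, hfe⟩ := Set.mem_iUnion₂.1 hf
  exact ⟨mem_cl_lt hfe, fun g hg => Set.mem_iUnion₂.2 ⟨e, he, hfe.1, hfe.2.trans hg.2⟩⟩

theorem clus_finite {m : ℝ} {t : Conf} (S : Finset Edge) (hfin : ∀ e, (cl m t e).Finite) :
    (clus m t S).Finite :=
  S.finite_toSet.biUnion fun e _ => hfin e

/-- The deterministic bound on the pieces. -/
theorem pieces_le {m : ℝ} (hm : 0 < m) (hS : ShieldFacts m) {t : Conf} (h0 : ∀ e, 0 ≤ t e)
    (hfin : ∀ e, (cl m t e).Finite) {γ : ℤ → V} {i₀ i₁ : ℤ} (hγ : SegGeo t γ i₀ i₁)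
    (h₀ : OKpt m t (γ i₀)) (h₁ : OKpt m t (γ i₁)) {l : ℕ} {p q : Fin l → ℤ}
    (hpq : ∀ j, i₀ ≤ p j ∧ p j ≤ q j ∧ q j ≤ i₁) (hord : ∀ i j, i < j → q i ≤ p j) :
    ∃ L : List (V × V), L.length = l ∧ (totSum L : ℤ) ≤ i₁ - i₀ ∧
      (spanSum L : ℝ) = ∑ j, dist1 (γ (p j)) (γ (q j)) ∧
      ∑ j, ∑ i ∈ Finset.Ico (p j) (q j), wt t (γ i) (γ (i + 1)) ≤
        m * spanSum L + 8 * m * (clus m t (segs (γ i₀) L)).ncard := by
  obtain ⟨L, hl, htot, hspan, hW⟩ := exists_spliced hm.le h0 γ l i₀ i₁ p q hγ.le hγ.adj hpq hord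
  refine ⟨L, hl, htot, hspan, ?_⟩
  have hC := clus_finite (m := m) (t := t) (segs (γ i₀) L) hfin
  obtain ⟨W, hW⟩ := hW hC.toFinset fun e he hme =>
    hC.mem_toFinset.2 (Set.mem_iUnion₂.2 ⟨e, he, hme, Relation.ReflTransGen.refl⟩)
  obtain ⟨w, hw, -⟩ := hS.detour t h0 _ _ W hC.toFinset
    (fun f hf => by simpa using clus_closed (hC.mem_toFinset.1 hf))
    (fun e _ => h₀ e trivial) (fun e _ => h₁ e trivial)
  have hT := (T_le h0 w).trans hw
  rw [← hγ.geo, ← Set.ncard_eq_toFinset_card _ hC] at hT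
  simp only [off] at hW
  linarith

end Vale.Agent.P158.Gen.Cut
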